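import Vale.Agent.P176.Resolutions
import Mathlib.Algebra.Category.ModuleCat.Biproducts

/-!
# Counterexamples to the little finitistic dimension conjecture
-/

namespace Vale.Agent.P176

open CategoryTheory Limits Matrix

variable {k : Type} [Field k]

/-- The simple `gl₂`-module of dimension `n` with `z = c`. -/
noncomputable def simpleMod (n : ℕ) (c : k) : LieMod k n where
  mat := Reps.L n c
  t_one := Reps.L_four n c
  sat :=
    { ef := by
        rw [Reps.L_four, one_mul]
        exact eq_add_of_sub_eq' (Reps.L_comm_ef n c)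
      he := by
        rw [Reps.L_four, one_mul, ← two_smul k]
        exact eq_add_of_sub_eq' (Reps.L_comm_he n c)
      hf := by
        rw [Reps.L_four, one_mul, ← two_smul k, sub_eq_add_neg, ← neg_smul]
        exact eq_add_of_sub_eq' (Reps.L_comm_hf n c)
      zc := (Reps.sat_L n c).2.2.2.1
      tc := (Reps.sat_L n c).2.2.2.2 }

variable [CharZero k]

theorem splitM_exists (j : ℕ) : Nonempty
    (Rep (phiM k) (simpleMod (k := k) (j + 1) ((j + 1 : ℕ) : k)) ≃ₗ[Alg k]
      Rep (phiY k) (simpleMod j (j : k)) ×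
        (Rep (phi1 k) (simpleMod (j + 2) (j : k)) × Rep (phiX k) (simpleMod j (j : k)))) := by
  obtain ⟨P, Q, hPQ, hQP, hx, ht⟩ :=
    Reps.exists_decomposition (k := k) (n := j + 1) (Nat.le_add_left 1 j)
  have hc : (2 * ((j + 1 : ℕ) : k)) ≠ 0 :=
    mul_ne_zero two_ne_zero (Nat.cast_ne_zero.2 (Nat.succ_ne_zero j))
  exact ⟨splitM (simpleMod (k := k) (j + 1) ((j + 1 : ℕ) : k)) (simpleMod j (j : k))
    (simpleMod (j + 2) (j : k)) P Q (2 * ((j + 1 : ℕ) : k)) hc hPQ hQP hx ht⟩

variable (k) in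
theorem unbounded_modules :
    (∀ j, ∃ d, HasProjectiveDimensionLT
        (ModuleCat.of (Alg k) (Rep (phiX k) (simpleMod j (j : k)))) d) ∧
      ∀ n : ℕ, (n : WithBot ℕ∞) ≤ projectiveDimension
        (ModuleCat.of (Alg k) (Rep (phiX k) (simpleMod (n + 1) ((n + 1 : ℕ) : k)))) := by
  let V₁ : LieMod k 1 := simpleMod 1 ((1 : ℕ) : k)
  refine unbounded_of_recursion (ModuleCat.of (Alg k) (Top V₁))
    (fun j => ModuleCat.of (Alg k) (Rep (phiX k) (simpleMod j (j : k))))
    (fun j => ModuleCat.of (Alg k) (Rep (phiY k) (simpleMod j (j : k))))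
    (fun j => ModuleCat.of (Alg k) (Rep (phi1 k) (simpleMod j (j : k))))
    (fun j => ModuleCat.of (Alg k) (Rep (phi1 k) (simpleMod (j + 2) (j : k))))
    (fun j => ModuleCat.of (Alg k) (Rep (phi2 k) (simpleMod (j + 1) ((j + 1 : ℕ) : k))))
    (fun j => ModuleCat.of (Alg k) (Rep (phiM k) (simpleMod (j + 1) ((j + 1 : ℕ) : k))))
    ?_ ?_ ?_ ?_ (fun j => tame_big _ V₁) (fun j => tame_two _ V₁) (fun j => tame_two _ V₁)
    (fun j f => ModuleCat.hom_ext (hom_two_zero _ V₁ f.hom)) ?_
  · exact fun j => isSES_of_linearMap _ _ (inclM_injective _) (projX_surjective _)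
      (exact_inclM_projX _)
  · exact fun j => isSES_of_linearMap _ _ (inclX_injective _) (projY_surjective _)
      (exact_inclX_projY _)
  · intro j
    obtain ⟨e⟩ := splitM_exists (k := k) j
    exact ⟨e.toModuleIso ≪≫ (ModuleCat.biprodIsoProd (ModuleCat.of (Alg k) _)
      (ModuleCat.of (Alg k) (_ × _))).symm ≪≫
        biprod.mapIso (Iso.refl _) (ModuleCat.biprodIsoProd _ _).symm⟩
  · have : Subsingleton (Rep (phiX k) (simpleMod (k := k) 0 ((0 : ℕ) : k))) :=
      ⟨fun v w => rep_ext _ _ fun i => funext fun l => l.elim0⟩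
    exact ModuleCat.isZero_of_subsingleton _
  · refine ⟨ModuleCat.ofHom (toTop V₁), fun h => toTop_ne_zero V₁ ?_⟩
    exact congrArg ModuleCat.Hom.hom h

end Vale.Agent.P176

open CategoryTheory

/-- The little finitistic dimension conjecture fails over every field of characteristic zero. -/
theorem Vale.Agent.Results.P176.UnboundedFinitisticDim.result
    (k : Type) [Field k] [CharZero k] :
    ∃ (A : Type) (_ : Ring A) (_ : Algebra k A), Module.Finite k A ∧
      ∀ n : ℕ, ∃ (M : ModuleCat.{0} A) (d : ℕ),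
        Module.Finite A M ∧ n ≤ d ∧ projectiveDimension M = (d : WithBot ℕ∞) := by
  open Vale.Agent.P176 in
  refine ⟨Alg k, inferInstance, inferInstance, finite_alg, fun n => ?_⟩
  obtain ⟨hfin, hge⟩ := unbounded_modules k
  obtain ⟨D, hD⟩ := hfin (n + 1)
  refine ⟨ModuleCat.of (Alg k) (Rep (phiX k) (simpleMod (n + 1) ((n + 1 : ℕ) : k))), ?_⟩
  have hlt := projectiveDimension_lt_iff.2 hD
  have hn := hge n
  generalize hp : projectiveDimension
    (ModuleCat.of (Alg k) (Rep (phiX k) (simpleMod (n + 1) ((n + 1 : ℕ) : k)))) = p at hlt hn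
  induction p with
  | bot => simp at hn
  | coe p =>
    induction p with
    | top => exact absurd hlt (by simp)
    | coe d =>
      exact ⟨d, inferInstanceAs (Module.Finite (Alg k) (Rep (phiX k) _)), by exact_mod_cast hn, rfl⟩
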